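import Vale.Agent.P207.N4.Dim
import Vale.Agent.P207.N4.H751.LQ2
import Vale.Agent.P207.N4.H832.RateP

/-!
# P207, line N4: the S-bundle and Lemma Q over the picture, without hypotheses
-/

open Set Filter Topology Metric
open scoped ContDiff

noncomputable section

namespace Vale.Agent.P207.N4.H751

open Vale.Agent.P207.N3

variable [Dim]

variable {Γ X B : Type} [Group Γ] [MetricSpace X] [ProperSpace X] [MulAction Γ X]
  [IsIsometricSMul Γ X] [TopologicalSpace B] [CompactSpace B] [T2Space B] [MulAction Γ B]
  [ContinuousConstSMul Γ B]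

variable {L : Leaf Γ X B} [MeasurableSpace B] [BorelSpace B] {V : Type}
  [NormedAddCommGroup V] [NormedSpace ℝ V] [FiniteDimensional ℝ V] (P : Pic L V)

/-- **(SB)**, no hypothesis -/
theorem SB_main : P.SB := sb P (H832.rateP P)

/-- **(LQ)**, no hypothesis -/
theorem LQ_main : P.LQ := lq P (H832.rateP P)

end Vale.Agent.P207.N4.H751
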